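import Crest.Agent.BFour.Cube

/-! Biased (2,4)-hypercontractivity and the level lemma. -/

set_option autoImplicit false
set_option linter.unusedSectionVars false

namespace Crest.Agent.BFour
open Finset Crest.FinProb

variable {ι : Type*} [Fintype ι] [DecidableEq ι] {p : ℝ}

lemma two_point (h0 : 0 < p) (h1 : p < 1) (a b : ℝ) :
    p * (a + phi p true * b) ^ 4 + (1 - p) * (a + phi p false * b) ^ 4 ≤
      a ^ 4 + 8 * (a ^ 2 * b ^ 2) + (2 / sg p) ^ 2 * b ^ 4 := by
  have h := sg_sq h0 h1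
  have h2 := sg_pos h0 h1
  obtain ⟨t, rfl⟩ : ∃ t, b = sg p * t := ⟨b / sg p, by field_simp⟩
  have e1 : phi p true * (sg p * t) = (1 - p) * t := by
    unfold phi; simp only [if_true]; field_simp
  have e2 : phi p false * (sg p * t) = -p * t := by
    unfold phi; simp only [Bool.false_eq_true, if_false]; field_simp
  have e3 : (sg p * t) ^ 2 = p * (1 - p) * t ^ 2 := by rw [mul_pow, h]
  have e4 : (2 / sg p) ^ 2 * (sg p * t) ^ 4 = 4 * (p * (1 - p)) * t ^ 4 := by
    rw [← h]; field_simp; ring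
  rw [e1, e2, e3, e4]
  have hs : 0 < p * (1 - p) := mul_pos h0 (by linarith)
  have key : 0 ≤ 2 * (a * t - (1 - 2 * p) * t ^ 2) ^ 2 +
      (3 + 3 * (p * (1 - p)) - 2 * (1 - 2 * p) ^ 2) * t ^ 4 := by
    have : 0 ≤ 3 + 3 * (p * (1 - p)) - 2 * (1 - 2 * p) ^ 2 := by nlinarith
    positivity
  have := mul_nonneg hs.le key
  nlinarith [this]

theorem bonami (h0 : 0 < p) (h1 : p < 1) (A : Finset ι) : ∀ c : Finset ι → ℝ,
    Ex p (fun ω => (∑ S ∈ A.powerset, c S * chi p S ω) ^ 4) ≤
      (∑ S ∈ A.powerset, (2 / sg p) ^ S.card * c S ^ 2) ^ 2 := by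
  induction A using Finset.induction_on with
  | empty =>
    intro c
    simp only [powerset_empty, sum_singleton, chi_empty, card_empty, pow_zero, mul_one, one_mul]
    rw [Ex_const]; exact le_of_eq (by ring)
  | insert i A hi ih =>
    intro c
    set K := 2 / sg p with hK
    have hK4 : 4 ≤ K := by
      rw [hK, le_div_iff₀ (sg_pos h0 h1)]; linarith [sg_le h0 h1]
    set a : (ι → Bool) → ℝ := fun ω => ∑ S ∈ A.powerset, c S * chi p S ω with ha
    set b : (ι → Bool) → ℝ := fun ω => ∑ S ∈ A.powerset, c (insert i S) * chi p S ω with hb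
    have hnot : ∀ S ∈ A.powerset, i ∉ S := fun S hS h => hi (mem_powerset.1 hS h)
    have hau : ∀ ω x, a (Function.update ω i x) = a ω := fun ω x =>
      sum_congr rfl fun S hS => by rw [chi_update_not_mem (hnot S hS)]
    have hbu : ∀ ω x, b (Function.update ω i x) = b ω := fun ω x =>
      sum_congr rfl fun S hS => by rw [chi_update_not_mem (hnot S hS)]
    have hg : ∀ ω, ∑ S ∈ (insert i A).powerset, c S * chi p S ω = a ω + phi p (ω i) * b ω := by
      intro ω
      rw [sum_powerset_insert hi, hb]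
      simp only [mul_sum]
      congr 1
      refine sum_congr rfl fun S hS => ?_
      rw [chi_insert (hnot S hS)]; ring
    have hQ : ∑ S ∈ (insert i A).powerset, K ^ S.card * c S ^ 2 =
        (∑ S ∈ A.powerset, K ^ S.card * c S ^ 2) +
          K * ∑ S ∈ A.powerset, K ^ S.card * c (insert i S) ^ 2 := by
      rw [sum_powerset_insert hi, mul_sum]
      congr 1
      refine sum_congr rfl fun S hS => ?_
      rw [card_insert_of_notMem (hnot S hS)]; ring
    simp only [hg]
    rw [hQ, ← Ex_Av h0 h1 i]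
    have iha := ih c
    have ihb := ih (fun S => c (insert i S))
    set Qa := ∑ S ∈ A.powerset, K ^ S.card * c S ^ 2
    set Qb := ∑ S ∈ A.powerset, K ^ S.card * c (insert i S) ^ 2
    have hQa : 0 ≤ Qa := sum_nonneg fun _ _ => by positivity
    have hQb : 0 ≤ Qb := sum_nonneg fun _ _ => by positivity
    change Ex p (fun ω => a ω ^ 4) ≤ Qa ^ 2 at iha
    change Ex p (fun ω => b ω ^ 4) ≤ Qb ^ 2 at ihb
    have hab : Ex p (fun ω => a ω ^ 2 * b ω ^ 2) ≤ Qa * Qb := by
      have := Ex_cs h0.le h1.le (fun ω => a ω ^ 2 * b ω ^ 2) (fun ω => a ω ^ 4)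
        (fun ω => b ω ^ 4) (fun _ => by positivity) (fun _ => by positivity) (fun _ => by ring)
      have h4 : Ex p (fun ω => a ω ^ 4) * Ex p (fun ω => b ω ^ 4) ≤ Qa ^ 2 * Qb ^ 2 :=
        mul_le_mul iha ihb (Ex_nonneg h0.le h1.le fun _ => by positivity) (by positivity)
      exact le_of_sq_le_sq_of_nonneg' (by nlinarith) (mul_nonneg hQa hQb)
    calc _ ≤ Ex p (fun ω => a ω ^ 4 + 8 * (a ω ^ 2 * b ω ^ 2) + K ^ 2 * b ω ^ 4) := by
          refine Ex_mono h0.le h1.le fun ω => ?_
          unfold Av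
          simp only [hau, hbu, Function.update_self]
          exact two_point h0 h1 _ _
      _ = Ex p (fun ω => a ω ^ 4) + 8 * Ex p (fun ω => a ω ^ 2 * b ω ^ 2) +
            K ^ 2 * Ex p (fun ω => b ω ^ 4) := by
          rw [Ex_add, Ex_add, Ex_mul, Ex_mul]
      _ ≤ Qa ^ 2 + 8 * (Qa * Qb) + K ^ 2 * Qb ^ 2 := by gcongr
      _ ≤ (Qa + K * Qb) ^ 2 := by nlinarith [mul_nonneg hQa hQb]
where
  le_of_sq_le_sq_of_nonneg' {x y : ℝ} (h : x ^ 2 ≤ y ^ 2) (hy : 0 ≤ y) : x ≤ y :=
    (abs_le_of_sq_le_sq' h hy).2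

lemma K_ge (h0 : 0 < p) (h1 : p < 1) : 4 ≤ 2 / sg p := by
  rw [le_div_iff₀ (sg_pos h0 h1)]; linarith [sg_le h0 h1]

/-- Level lemma. -/
theorem level (h0 : 0 < p) (h1 : p < 1) (G : (ι → Bool) → ℝ) (J : Finset ι) (e : ι) (D : ℕ)
    (s : ℝ) (hs : 0 ≤ s)
    (hα : ∑ T : Finset ι, (if e ∈ T ∧ T ⊆ J then co p G T ^ 2 else 0) ≤ s ^ 2) :
    ∑ T : Finset ι, (if e ∈ T ∧ T ⊆ J ∧ T.card ≤ D then co p G T ^ 2 else 0) ≤
      (2 / sg p) ^ D * s * Ex p (fun ω => |Lp p e G ω|) := by
  set K := 2 / sg p with hK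
  have hK4 : 4 ≤ K := K_ge h0 h1
  set ca : Finset ι → ℝ := fun T => if e ∈ T ∧ T ⊆ J then co p G T else 0 with hca
  set cb : Finset ι → ℝ := fun T => if e ∈ T ∧ T ⊆ J ∧ T.card ≤ D then co p G T else 0 with hcb
  set β := ∑ T : Finset ι, (if e ∈ T ∧ T ⊆ J ∧ T.card ≤ D then co p G T ^ 2 else 0) with hβ
  set α₁ := Ex p (fun ω => |Lp p e G ω|) with hα₁
  have hβ0 : 0 ≤ β := sum_nonneg fun _ _ => by split_ifs <;> positivity
  have hα₁0 : 0 ≤ α₁ := Ex_nonneg h0.le h1.le fun _ => abs_nonneg _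
  have hab : Ex p (fun ω => ser p ca ω * ser p cb ω) = β := by
    rw [Ex_ser_ser h0 h1]
    refine sum_congr rfl fun T _ => ?_
    simp only [hca, hcb]
    by_cases h : e ∈ T ∧ T ⊆ J ∧ T.card ≤ D
    · rw [if_pos h, if_pos h, if_pos ⟨h.1, h.2.1⟩]; ring
    · rw [if_neg h, if_neg h]; ring
  have haa : Ex p (fun ω => ser p ca ω ^ 2) ≤ s ^ 2 := by
    refine le_trans (le_of_eq ?_) hα
    simp only [sq]
    rw [Ex_ser_ser h0 h1]
    refine sum_congr rfl fun T _ => ?_
    simp only [hca]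
    split_ifs <;> simp
  have hb4 : Ex p (fun ω => ser p cb ω ^ 4) ≤ (K ^ D * β) ^ 2 := by
    have := bonami h0 h1 univ cb
    rw [powerset_univ] at this
    refine le_trans this (pow_le_pow_left₀ (sum_nonneg fun _ _ => by positivity) ?_ 2)
    rw [hβ, mul_sum]
    refine sum_le_sum fun T _ => ?_
    simp only [hcb]
    split_ifs with h
    · exact mul_le_mul_of_nonneg_right (pow_le_pow_right₀ (by linarith) h.2.2) (by positivity)
    · simp
  have ha1 : Ex p (fun ω => |ser p ca ω|) ≤ α₁ := by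
    have e1 : ∀ ω', ser p ca ω' = Ex p (fun ω => Lp p e G (J.piecewise ω' ω)) := by
      intro ω'
      rw [Lp_eq h0 h1, Ex_piecewise_ser h0 h1]
      congr 1
      funext T
      simp only [hca]
      by_cases h : e ∈ T <;> by_cases h' : T ⊆ J <;> simp [h, h']
    rw [hα₁, ← Ex_Ex_piecewise h0 h1 J (fun ω => |Lp p e G ω|)]
    refine Ex_mono h0.le h1.le fun ω' => ?_
    rw [e1]
    exact Ex_abs h0.le h1.le _
  have c1 : β ≤ Ex p (fun ω => |ser p ca ω| * |ser p cb ω|) := by
    rw [← hab]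
    refine Ex_mono h0.le h1.le fun ω => ?_
    rw [← abs_mul]; exact le_abs_self _
  have c2 := Ex_cs h0.le h1.le (fun ω => |ser p ca ω| * |ser p cb ω|) (fun ω => |ser p ca ω|)
    (fun ω => |ser p ca ω| * ser p cb ω ^ 2) (fun _ => abs_nonneg _) (fun _ => by positivity)
    (fun ω => by rw [mul_pow, sq_abs (ser p cb ω)]; ring)
  have c3 := Ex_cs h0.le h1.le (fun ω => |ser p ca ω| * ser p cb ω ^ 2) (fun ω => ser p ca ω ^ 2)
    (fun ω => ser p cb ω ^ 4) (fun _ => by positivity) (fun _ => by positivity)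
    (fun ω => by rw [mul_pow, sq_abs]; ring)
  set X := Ex p (fun ω => |ser p ca ω| * ser p cb ω ^ 2)
  have hX0 : 0 ≤ X := Ex_nonneg h0.le h1.le fun _ => by positivity
  have c4 : X ≤ s * (K ^ D * β) := by
    refine (abs_le_of_sq_le_sq' ?_ (by positivity)).2
    refine c3.trans ?_
    rw [mul_pow]
    exact mul_le_mul haa hb4 (Ex_nonneg h0.le h1.le fun _ => by positivity) (by positivity)
  have c5 : β ^ 2 ≤ α₁ * (s * (K ^ D * β)) := by
    refine (pow_le_pow_left₀ hβ0 c1 2).trans (c2.trans ?_)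
    exact mul_le_mul ha1 c4 hX0 hα₁0
  rcases hβ0.eq_or_lt with h | h
  · rw [← h]; positivity
  · have : β * β ≤ (K ^ D * s * α₁) * β := by nlinarith
    exact le_of_mul_le_mul_right this h

/-- Fourier coefficients of a restriction. -/
lemma Ex_co_restrict (h0 : 0 < p) (h1 : p < 1) (F : (ι → Bool) → ℝ) (A T : Finset ι) :
    Ex p (fun ω => co p (fun ω' => F (A.piecewise ω' ω)) T ^ 2) =
      ∑ S : Finset ι, if S ∩ A = T then co p F S ^ 2 else 0 := by
  have e1 : ∀ ω, co p (fun ω' => F (A.piecewise ω' ω)) T =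
      ∑ S : Finset ι, (if S ∩ A = T then co p F S else 0) * chi p (S \ A) ω := by
    intro ω
    have : (fun ω' => F (A.piecewise ω' ω)) =
        fun ω' => ∑ S : Finset ι, co p F S * chi p (S \ A) ω * chi p (S ∩ A) ω' := by
      funext ω'
      rw [expansion h0 h1 F]; unfold ser
      refine sum_congr rfl fun S _ => ?_
      rw [chi_piecewise]; ring
    rw [this]
    unfold co
    simp only [sum_mul, mul_assoc]
    rw [Ex_sum]
    refine sum_congr rfl fun S _ => ?_
    rw [Ex_mul, Ex_mul, Ex_chi_chi h0 h1]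
    split_ifs <;> simp
  simp only [e1, sq, sum_mul_sum]
  rw [Ex_sum]
  refine sum_congr rfl fun S _ => ?_
  rw [Ex_sum]
  have e2 : ∀ S' : Finset ι, Ex p (fun ω => (if S ∩ A = T then co p F S else 0) * chi p (S \ A) ω *
      ((if S' ∩ A = T then co p F S' else 0) * chi p (S' \ A) ω)) =
      if S' = S then (if S ∩ A = T then co p F S * co p F S else 0) else 0 := by
    intro S'
    have : (fun ω => (if S ∩ A = T then co p F S else 0) * chi p (S \ A) ω *
      ((if S' ∩ A = T then co p F S' else 0) * chi p (S' \ A) ω)) = fun ω =>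
      ((if S ∩ A = T then co p F S else 0) * (if S' ∩ A = T then co p F S' else 0)) *
        (chi p (S \ A) ω * chi p (S' \ A) ω) := by funext ω; ring
    rw [this, Ex_mul, Ex_chi_chi h0 h1]
    by_cases hS : S' = S
    · subst hS; by_cases h : S' ∩ A = T <;> simp [h]
    · rw [if_neg hS]
      by_cases h : S ∩ A = T
      · by_cases h' : S' ∩ A = T
        · have : S \ A ≠ S' \ A := by
            intro h3
            apply hS
            rw [← sdiff_union_inter S' A, ← sdiff_union_inter S A, h, h', h3]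
          rw [if_neg this, mul_zero]
        · rw [if_neg h']; simp
      · rw [if_neg h]; simp
  simp only [e2, sum_ite_eq', mem_univ, if_true]

lemma Lp_restrict (F : (ι → Bool) → ℝ) (A : Finset ι) {e : ι} (he : e ∈ A) (ω ω' : ι → Bool) :
    Lp p e (fun ω' => F (A.piecewise ω' ω)) ω' = Lp p e F (A.piecewise ω' ω) := by
  have : ∀ b, A.piecewise (Function.update ω' e b) ω = Function.update (A.piecewise ω' ω) e b := by
    intro b
    funext j
    by_cases hj : j = e
    · subst hj; rw [piecewise_eq_of_mem _ _ _ he]; simp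
    · rw [Function.update_of_ne hj]
      by_cases hA : j ∈ A
      · rw [piecewise_eq_of_mem _ _ _ hA, piecewise_eq_of_mem _ _ _ hA, Function.update_of_ne hj]
      · rw [piecewise_eq_of_notMem _ _ _ hA, piecewise_eq_of_notMem _ _ _ hA]
  unfold Lp Av
  simp only [this]

lemma Ex_comp (τ : Equiv.Perm ι) (F : (ι → Bool) → ℝ) :
    Ex p (fun ω => F (ω ∘ τ)) = Ex p F := by
  unfold Ex
  refine Fintype.sum_equiv (Equiv.arrowCongr τ.symm (Equiv.refl Bool)) _ _ fun ω => ?_
  have : (Equiv.arrowCongr τ.symm (Equiv.refl Bool)) ω = ω ∘ τ := by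
    funext i; simp [Equiv.arrowCongr]
  rw [this]
  congr 1
  unfold bernoulliWeight
  exact (Equiv.prod_comp τ (fun i => if ω i = true then p else 1 - p)).symm

lemma co_map (τ : Equiv.Perm ι) (G : (ι → Bool) → ℝ) (hG : ∀ ω, G (ω ∘ τ) = G ω) (T : Finset ι) :
    co p G (T.map τ.toEmbedding) = co p G T := by
  unfold co
  rw [← Ex_comp τ (fun ω => G ω * chi p T ω)]
  congr 1
  funext ω
  rw [hG]
  unfold chi
  rw [prod_map]; rfl

end Crest.Agent.BFour
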