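import Crest.Agent.BFour.Main

/-! Russo's formula and the integration of the differential inequality. -/

set_option autoImplicit false
set_option linter.unusedSectionVars false

namespace Crest.Agent.BFour
open Finset Crest.FinProb

variable {ι : Type*} [Fintype ι] [DecidableEq ι]

lemma continuous_Ex (f : (ι → Bool) → ℝ) : Continuous fun p : ℝ => Ex p f := by
  unfold Ex bernoulliWeight
  refine continuous_finsetSum _ fun ω _ => Continuous.mul ?_ continuous_const
  refine continuous_finsetProd _ fun i _ => ?_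
  split_ifs <;> fun_prop

lemma russo (f : (ι → Bool) → ℝ) {p : ℝ} (h0 : 0 < p) (h1 : p < 1) :
    HasDerivAt (fun p : ℝ => Ex p f) (∑ e, Ex p (dl f e)) p := by
  have hσ := sg_sq h0 h1
  have hσ0 := (sg_pos h0 h1).ne'
  have hw : ∀ ω : ι → Bool, HasDerivAt (fun p : ℝ => bernoulliWeight p ω)
      (∑ e, bernoulliWeight p ω * (phi p (ω e) / sg p)) p := by
    intro ω
    unfold bernoulliWeight
    have := HasDerivAt.fun_finsetProd (u := (univ : Finset ι))
      (f := fun i (q : ℝ) => if ω i = true then q else 1 - q)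
      (f' := fun i => if ω i = true then 1 else -1) (x := p) (fun i _ => by
        by_cases h : ω i = true
        · simp only [h, if_true]; exact hasDerivAt_id p
        · simp only [h]; exact (hasDerivAt_id p).const_sub 1)
    refine this.congr_deriv (sum_congr rfl fun e _ => ?_)
    symm
    rw [← mul_prod_erase univ _ (mem_univ e), smul_eq_mul]
    have hp1 : (1 - p) ≠ 0 := by linarith
    have : (if ω e = true then p else 1 - p) * (phi p (ω e) / sg p) =
        if ω e = true then 1 else -1 := by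
      unfold phi
      by_cases h : ω e = true
      · simp only [h, if_true]; field_simp; rw [hσ]
      · simp only [h]; simp only [Bool.false_eq_true, if_false]; field_simp; rw [hσ]
    rw [← this]; ring
  have h2 : HasDerivAt (fun p : ℝ => Ex p f)
      (∑ ω : ι → Bool, (∑ e, bernoulliWeight p ω * (phi p (ω e) / sg p)) * f ω) p := by
    unfold Ex
    exact HasDerivAt.fun_sum fun ω _ => (hw ω).mul_const _
  refine h2.congr_deriv (Eq.symm ?_)
  simp only [sum_mul]
  rw [sum_comm]
  refine sum_congr rfl fun e _ => ?_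
  have : Ex p (dl f e) = Ex p (Av p e (fun ω => phi p (ω e) / sg p * f ω)) := by
    congr 1
    funext ω
    simp only [Av, dl, Function.update_self, phi, if_true, Bool.false_eq_true, if_false]
    field_simp
    rw [hσ]; ring
  rw [this, Ex_Av h0 h1]
  unfold Ex
  exact sum_congr rfl fun _ _ => by ring

lemma ode (μ μ' : ℝ → ℝ) (hc : Continuous μ) (c : ℝ) (hc0 : 0 < c)
    (hd : ∀ t, 0 < t → t < 1 → HasDerivAt μ (μ' t) t)
    (hpos : ∀ t, 0 < t → t < 1 → 0 ≤ μ' t)
    (hineq : ∀ t, 0 < t → t < 1 → c * (μ t * (1 - μ t)) ≤ μ' t)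
    (ε : ℝ) (hε0 : 0 < ε) (hε : ε < 1 / 2) (p q : ℝ) (hp0 : 0 ≤ p) (hq1 : q ≤ 1)
    (hp : ε ≤ μ p) (hq : p + 4 / c * Real.log (1 / (2 * ε)) ≤ q) : 1 - ε ≤ μ q := by
  by_contra hcon
  push Not at hcon
  have hl : 0 < Real.log (1 / (2 * ε)) :=
    Real.log_pos (by rw [lt_div_iff₀ (by positivity)]; linarith)
  have hpq : p ≤ q := by
    have : 0 ≤ 4 / c * Real.log (1 / (2 * ε)) := by positivity
    linarith
  have hint : ∀ t ∈ interior (Set.Icc p q), 0 < t ∧ t < 1 := by
    intro t ht
    rw [interior_Icc] at ht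
    exact ⟨lt_of_le_of_lt hp0 ht.1, lt_of_lt_of_le ht.2 hq1⟩
  have hmono : MonotoneOn μ (Set.Icc p q) :=
    monotoneOn_of_deriv_nonneg (convex_Icc p q) hc.continuousOn
      (fun t ht => (hd t (hint t ht).1 (hint t ht).2).differentiableAt.differentiableWithinAt)
      (fun t ht => by
        rw [(hd t (hint t ht).1 (hint t ht).2).deriv]; exact hpos t (hint t ht).1 (hint t ht).2)
  have hb : ∀ t ∈ Set.Icc p q, ε ≤ μ t ∧ μ t < 1 - ε := fun t ht =>
    ⟨hp.trans (hmono ⟨le_rfl, hpq⟩ ht ht.1), (hmono ht ⟨hpq, le_rfl⟩ ht.2).trans_lt hcon⟩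
  set h : ℝ → ℝ := fun t => Real.log (μ t) - Real.log (1 - μ t) - c * t with hh
  have hder : ∀ t ∈ interior (Set.Icc p q),
      HasDerivAt h (μ' t / μ t - (-μ' t) / (1 - μ t) - c) t := by
    intro t ht
    have hbt := hb t (interior_subset ht)
    have d := hd t (hint t ht).1 (hint t ht).2
    have d1 := d.log (by linarith : μ t ≠ 0)
    have d2 := (d.const_sub 1).log (by linarith : 1 - μ t ≠ 0)
    have d3 := (hasDerivAt_id t).const_mul c
    rw [mul_one] at d3
    exact (d1.sub d2).sub d3
  have hmono2 : MonotoneOn h (Set.Icc p q) := by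
    refine monotoneOn_of_deriv_nonneg (convex_Icc p q) ?_
      (fun t ht => (hder t ht).differentiableAt.differentiableWithinAt) (fun t ht => ?_)
    · refine ContinuousOn.sub (ContinuousOn.sub ?_ ?_) (by fun_prop)
      · exact hc.continuousOn.log fun t ht => by linarith [(hb t ht).1]
      · exact (continuousOn_const.sub hc.continuousOn).log fun t ht =>
          (show (0 : ℝ) < 1 - μ t by linarith [(hb t ht).2]).ne'
    · rw [(hder t ht).deriv]
      have hbt := hb t (interior_subset ht)
      have a1 : 0 < μ t := by linarith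
      have a2 : 0 < 1 - μ t := by linarith
      have a3 := hineq t (hint t ht).1 (hint t ht).2
      have : μ' t / μ t - (-μ' t) / (1 - μ t) = μ' t / (μ t * (1 - μ t)) := by
        field_simp; ring
      rw [this, sub_nonneg, le_div_iff₀ (mul_pos a1 a2)]
      exact a3
  have hfin := hmono2 ⟨le_rfl, hpq⟩ ⟨hpq, le_rfl⟩ hpq
  simp only [hh] at hfin
  have bp := hb p ⟨le_rfl, hpq⟩
  have bq := hb q ⟨hpq, le_rfl⟩
  have l1 : Real.log ε ≤ Real.log (μ p) := Real.log_le_log hε0 bp.1
  have l2 : Real.log (1 - μ p) ≤ Real.log (1 - ε) := Real.log_le_log (by linarith) (by linarith)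
  have l3 : Real.log (μ q) < Real.log (1 - ε) := Real.log_lt_log (by linarith) bq.2
  have l4 : Real.log ε ≤ Real.log (1 - μ q) := Real.log_le_log hε0 (by linarith)
  have l5 : Real.log (1 - ε) - Real.log ε ≤ 2 * Real.log (1 / (2 * ε)) := by
    rw [← Real.log_div (by linarith) hε0.ne']
    have : 2 * Real.log (1 / (2 * ε)) = Real.log ((1 / (2 * ε)) ^ 2) := by
      rw [Real.log_pow]; norm_num
    rw [this]
    refine Real.log_le_log (div_pos (by linarith) hε0) ?_
    rw [div_pow, div_le_div_iff₀ hε0 (by positivity)]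
    nlinarith [mul_nonneg hε0.le (sq_nonneg (2 * ε - 1))]
  have l6 : 4 * Real.log (1 / (2 * ε)) ≤ c * (q - p) := by
    have := mul_le_mul_of_nonneg_left (show 4 / c * Real.log (1 / (2 * ε)) ≤ q - p by linarith)
      hc0.le
    rwa [← mul_assoc, mul_div_cancel₀ _ hc0.ne'] at this
  linarith

end Crest.Agent.BFour
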